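import Mathlib
import Vale.Agent.P247.Basic
import Vale.Agent.P247.Pointwise
import Vale.Agent.P247.Avg
import Vale.Agent.P247.Target
import Vale.Agent.P247.Degree

/-!
# P247: deforming triples on the four-torus two of whose forms share a circle symmetry
-/

open Set MeasureTheory

namespace Vale.Agent.P247

noncomputable section

theorem hyper_of_isHK {ω : Fin 3 → Form} (h : IsHK ω) : Hyper ω := by
  obtain ⟨μ, hμ, hw⟩ := h
  intro a ha
  have e : wedge (∑ i, a i • ω i) (∑ i, a i • ω i) = ∑ i, ∑ j, a i * a j * wedge (ω i) (ω j) := by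
    simp [wedge, Fin.sum_univ_three]; ring
  rw [e]
  obtain ⟨i₀, hi₀⟩ := Function.ne_iff.1 ha
  simp only [hw, mul_ite, mul_zero, Finset.sum_ite_eq, Finset.mem_univ, if_true]
  exact Finset.sum_pos' (fun i _ => mul_nonneg (mul_self_nonneg _) (by positivity))
    ⟨i₀, Finset.mem_univ _, mul_pos (mul_self_pos.2 hi₀) (by positivity)⟩

theorem triple_apply (α : Fin 3 → R4 → R4) (x : R4) (i : Fin 3) : triple α x i = hk0 i + dOne (α i) x := rfl

theorem deforms {P : Fin 4 → R4} {c : ℝ} (hP : LinearIndependent ℝ P) (hc : 0 < c) (hP0 : P 0 = c • ev 0)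
    {α : Fin 3 → R4 → R4} (hα : ∀ i, Smooth (α i)) (hper : ∀ i k x, α i (x + P k) = α i x)
    (hhyp : ∀ x, Hyper (triple α x))
    (hsym : ∀ x, ∀ s : ℝ, triple α (x + s • ev 0) 0 = triple α x 0 ∧ triple α (x + s • ev 0) 1 = triple α x 1) :
    Deforms P α := by
  obtain ⟨γ, hγ⟩ : ∃ γ : Fin 3 → R4 → R4, γ = fun i => avg c (α i) := ⟨_, rfl⟩
  have hγs : ∀ i, Smooth (γ i) := fun i n => by rw [hγ]; exact contDiff_avg c n (hα i)
  have hγp : ∀ i k x, γ i (x + P k) = γ i x := fun i k x => by rw [hγ]; exact avg_periodic c (hper i k) x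
  have hγinv : ∀ i x (r : ℝ), γ i (x + r • ev 0) = γ i x := fun i x r => by
    rw [hγ]; exact avg_invariant c (fun y => by rw [← hP0]; exact hper i 0 y) x r
  have hdα : ∀ i x, Continuous fun s : ℝ => dOne (α i) (x + s • ev 0) := fun i x =>
    skewPart.continuous.comp (((hα i 1).continuous_fderiv (by norm_num)).comp (by fun_prop))
  have havg : ∀ i x, triple γ x i = c⁻¹ • ∫ s in (0:ℝ)..c, triple α (x + s • ev 0) i := fun i x => by
    simp only [triple_apply, hγ]
    rw [dOne_avg c (hα i), intervalIntegral.integral_add intervalIntegrable_const ((hdα i x).intervalIntegrable _ _),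
      intervalIntegral.integral_const, sub_zero, smul_add, inv_smul_smul₀ hc.ne', avg]
  have hV : ∀ x, Continuous fun s : ℝ => triple α (x + s • ev 0) 2 := fun x => continuous_const.add (hdα 2 x)
  have hfix : ∀ x, triple γ x 0 = triple α x 0 ∧ triple γ x 1 = triple α x 1 := fun x => by
    constructor <;> rw [havg]
    · simp only [(hsym x _).1, intervalIntegral.integral_const, sub_zero, inv_smul_smul₀ hc.ne']
    · simp only [(hsym x _).2, intervalIntegral.integral_const, sub_zero, inv_smul_smul₀ hc.ne']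
  have hfirst : ∀ x, ∀ τ ∈ Icc (0 : ℝ) 1, Hyper fun i => (1 - τ) • triple α x i + τ • triple γ x i := by
    intro x τ hτ
    have hall : ∀ s : ℝ, Hyper ![triple α x 0, triple α x 1, triple α (x + s • ev 0) 2] := fun s => by
      have := hhyp (x + s • ev 0)
      rwa [show triple α (x + s • ev 0) = ![triple α x 0, triple α x 1, triple α (x + s • ev 0) 2] from
        funext fun i => by fin_cases i <;> simp [hsym x s]] at this
    have := hyper_average (hV x) hall hc hτ
    simp only [zero_smul, add_zero, ← havg] at this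
    convert this using 1
    funext i
    fin_cases i
    · simp [(hfix x).1, ← add_smul]
    · simp [(hfix x).2, ← add_smul]
    · simp
  have hγhyp : ∀ x, Hyper (triple γ x) := fun x => by
    have := hfirst x 1 (by simp)
    simpa using this
  obtain ⟨μ, hμ⟩ : ∃ μ : Fin 3 → R4 → ℝ, μ = fun i x => -γ i x 0 := ⟨_, rfl⟩
  have hμs : ∀ i, Smooth (μ i) := fun i n => by rw [hμ]; exact (contDiff_pi.1 (hγs i n) 0).neg
  have hμp : ∀ k i x, μ i (x + P k) = μ i x := fun k i x => by simp [hμ, hγp]
  have hd0 : ∀ i x, fderiv ℝ (γ i) x (ev 0) = 0 := fun i x => by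
    have h := ((hγs i).diff x).hasFDerivAt.hasLineDerivAt (ev 0)
    have e : (fun r : ℝ => γ i (x + r • ev 0)) = fun _ => γ i x := funext fun r => hγinv i x r
    unfold HasLineDerivAt at h
    rw [e] at h
    exact h.unique (hasDerivAt_const 0 _)
  have hμd : ∀ i (a : Fin 4) x, pd (μ i) a x = -fderiv ℝ (γ i) x (ev a) 0 := fun i a x => by
    simp only [hμ, pd, fderiv_fun_neg, neg_apply]
    rw [fderiv_apply ((hγs i).diff x) 0]; rfl
  have hinv : ∀ i x, pd (μ i) 0 x = 0 := fun i x => by rw [hμd, hd0]; simp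
  have hrow : ∀ x i (l : Fin 3), triple γ x i 0 l.succ = jac μ x i l := fun x i l => by
    simp only [triple_apply, Pi.add_apply, dOne, hd0, jac, hμd]
    fin_cases i <;> fin_cases l <;> simp [hk0, elemForm, ev]
  have hne : ∀ x, jdet μ x ≠ 0 := fun x h0 => by
    have hdet : (Matrix.of fun i l => jac μ x i l).det = 0 := by
      rw [Matrix.det_fin_three, ← h0]; simp [jdet]; ring
    obtain ⟨a, ha, hav⟩ := Matrix.exists_vecMul_eq_zero_iff.2 hdet
    have hz : ∀ l : Fin 3, (∑ i, a i • triple γ x i) 0 l.succ = 0 := fun l => by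
      have := congrFun hav l
      simp [Matrix.vecMul, dotProduct] at this
      simpa [hrow] using this
    have hpos := hγhyp x a ha
    have z0 := hz 0
    have z1 := hz 1
    have z2 := hz 2
    simp only [show (0 : Fin 3).succ = (1 : Fin 4) from rfl, show (1 : Fin 3).succ = (2 : Fin 4) from rfl,
      show (2 : Fin 3).succ = (3 : Fin 4) from rfl] at z0 z1 z2
    rw [wedge, z0, z1, z2] at hpos
    simp at hpos
  have hhk : ∀ x, IsHK (triple (endPrim μ) x) := fun x =>
    ⟨jdet μ x, jdet_pos hP hμs hμp hne x, (triple_endPrim hμs hinv x).2⟩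
  have hsecond : ∀ x, ∀ τ ∈ Icc (0 : ℝ) 1, Hyper fun i => (1 - τ) • triple γ x i + τ • triple (endPrim μ) x i :=
    fun x τ hτ => by
    refine hyper_segment (fun i => ?_) (hγhyp x) (hyper_of_isHK (hhk x)) hτ
    have e : ∀ l : Fin 3, triple γ x i 0 l.succ = triple (endPrim μ) x i 0 l.succ := fun l => by
      rw [hrow, (triple_endPrim hμs hinv x).1]
    exact ⟨e 0, e 1, e 2⟩
  have hep : ∀ i k x, endPrim μ i (x + P k) = endPrim μ i x := fun i k x => by
    have hg : grad (μ (i + 2)) (x + P k) = grad (μ (i + 2)) x := by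
      funext a
      have e : fderiv ℝ (fun y => μ (i + 2) (y + P k)) x = fderiv ℝ (μ (i + 2)) x := by
        rw [show (fun y => μ (i + 2) (y + P k)) = μ (i + 2) from funext (hμp k (i + 2))]
      rw [fderiv_comp_add_right] at e
      simp only [grad, pd, e]
    simp only [endPrim, hμp, hg]
  let ψ₁ : ℝ → ℝ := fun t => Real.smoothTransition (2 * t)
  let ψ₂ : ℝ → ℝ := fun t => Real.smoothTransition (2 * t - 1)
  let β : ℝ → Fin 3 → R4 → R4 := fun t i x => α i x + ψ₁ t • (γ i x - α i x) + ψ₂ t • (endPrim μ i x - γ i x)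
  have htr : ∀ t x i, triple (β t) x i =
      triple α x i + ψ₁ t • (triple γ x i - triple α x i) + ψ₂ t • (triple (endPrim μ) x i - triple γ x i) := by
    intro t x i
    have hA := ((hα i).diff x).hasFDerivAt
    have hG := ((hγs i).diff x).hasFDerivAt
    have hE := ((smooth_endPrim hμs i).diff x).hasFDerivAt
    have hb : HasFDerivAt (β t i) _ x :=
      (hA.fun_add ((hG.fun_sub hA).fun_const_smul (ψ₁ t))).fun_add ((hE.fun_sub hG).fun_const_smul (ψ₂ t))
    simp only [triple_apply, dOne_eq, hb.fderiv, map_add, map_sub, map_smul]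
    module
  refine ⟨β, fun i n => ?_, fun t i k x => ?_, fun x => ?_, fun t ht x => ?_, fun x => ?_⟩
  · have s₁ : ContDiff ℝ n fun z : ℝ × R4 => ψ₁ z.1 :=
      Real.smoothTransition.contDiff.comp (contDiff_const.mul contDiff_fst)
    have s₂ : ContDiff ℝ n fun z : ℝ × R4 => ψ₂ z.1 :=
      Real.smoothTransition.contDiff.comp ((contDiff_const.mul contDiff_fst).sub contDiff_const)
    have a₀ : ContDiff ℝ n fun z : ℝ × R4 => α i z.2 := (hα i n).comp contDiff_snd
    have a₁ : ContDiff ℝ n fun z : ℝ × R4 => γ i z.2 := (hγs i n).comp contDiff_snd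
    have a₂ : ContDiff ℝ n fun z : ℝ × R4 => endPrim μ i z.2 := (smooth_endPrim hμs i n).comp contDiff_snd
    exact (a₀.add (s₁.smul (a₁.sub a₀))).add (s₂.smul (a₂.sub a₁))
  · simp only [β, hper, hγp, hep]
  · funext i
    simp [htr, ψ₁, ψ₂, Real.smoothTransition.zero_of_nonpos]
  · rcases le_total t (1 / 2) with h | h
    · have := hfirst x (ψ₁ t) ⟨Real.smoothTransition.nonneg _, Real.smoothTransition.le_one _⟩
      convert this using 1
      funext i
      rw [htr, show ψ₂ t = 0 from Real.smoothTransition.zero_of_nonpos (by linarith)]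
      module
    · have := hsecond x (ψ₂ t) ⟨Real.smoothTransition.nonneg _, Real.smoothTransition.le_one _⟩
      convert this using 1
      funext i
      rw [htr, show ψ₁ t = 1 from Real.smoothTransition.one_of_one_le (by linarith)]
      module
  · have e : triple (β 1) x = triple (endPrim μ) x := by
      funext i
      rw [htr, show ψ₁ 1 = 1 from Real.smoothTransition.one_of_one_le (by norm_num),
        show ψ₂ 1 = 1 from Real.smoothTransition.one_of_one_le (by norm_num)]
      module
    rw [e]; exact hhk x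

end

end Vale.Agent.P247

namespace Vale.Agent.Results.P247.TwoInvariantForms

open Vale.Agent.P247

/-- A hypersymplectic triple on a flat four-torus, in the class of the standard triple, deforms to a
hyperkaehler triple as soon as two of its forms are invariant under one coordinate circle. -/
theorem result :
    ∀ (P : Fin 4 → R4) (c : ℝ), LinearIndependent ℝ P → 0 < c → P 0 = c • ev 0 →
      ∀ α : Fin 3 → R4 → R4, (∀ i, ∀ n : ℕ, ContDiff ℝ n (α i)) → (∀ i k x, α i (x + P k) = α i x) →
        (∀ x, Hyper (triple α x)) →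
        (∀ x, ∀ s : ℝ, triple α (x + s • ev 0) 0 = triple α x 0 ∧ triple α (x + s • ev 0) 1 = triple α x 1) →
        Deforms P α :=
  fun _ _ hP hc hP0 _ hα hper hhyp hsym => deforms hP hc hP0 hα hper hhyp hsym

end Vale.Agent.Results.P247.TwoInvariantForms
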